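import Mathlib

/-! # P097 / H896 : core of the block [ISO] -/

set_option linter.all false

namespace Vale.Agent.P097.H896

open Complex Metric Set Filter Topology

/-- slit disc in normal position -/
def SD (R : ℝ) : Set ℂ := {z | ‖z‖ < R ∧ z ∈ slitPlane}

theorem isOpen_SD (R : ℝ) : IsOpen (SD R) := by
  have : SD R = ball 0 R ∩ slitPlane := by
    ext z; simp [SD, mem_ball_zero_iff]
  rw [this]
  exact isOpen_ball.inter isOpen_slitPlane

theorem isPreconnected_SD {R : ℝ} (hR : 0 < R) : IsPreconnected (SD R) := by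
  have h1 : StarConvex ℝ ((R / 2 : ℝ) : ℂ) (SD R) := by
    have h2 := starConvex_ofReal_slitPlane (x := R / 2) (by positivity)
    have h3 : StarConvex ℝ ((R / 2 : ℝ) : ℂ) (ball (0 : ℂ) R) := by
      apply (convex_ball (0 : ℂ) R).starConvex
      rw [mem_ball_zero_iff, norm_real, Real.norm_eq_abs, abs_of_pos (by positivity)]
      linarith
    have : SD R = ball 0 R ∩ slitPlane := by
      ext z; simp [SD, mem_ball_zero_iff]
    rw [this]
    exact h3.inter h2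
  have hne : ((R / 2 : ℝ) : ℂ) ∈ SD R := by
    refine ⟨?_, ?_⟩
    · rw [norm_real, Real.norm_eq_abs, abs_of_pos (by positivity)]
      linarith
    · exact ofReal_mem_slitPlane.2 (by positivity)
  exact (h1.isPathConnected hne).isConnected.isPreconnected

/-- The elimination identity. -/
theorem elim_identity {Φ : ℂ → ℂ} {R : ℝ} (hΦ : DifferentiableOn ℂ Φ (SD R)) {r T : ℂ × ℂ → ℂ}
    {σ w₀ : ℂ} (h1 : DifferentiableAt ℂ r (σ, w₀)) (h2 : DifferentiableAt ℂ r (-σ, w₀))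
    (h3 : DifferentiableAt ℂ T (σ, w₀))
    (hrel : ∀ᶠ p : ℂ × ℂ in 𝓝 (σ, w₀), p.1 * r p ∈ SD R ∧ -p.1 * r (-p.1, p.2) ∈ SD R ∧
      T p = Φ (p.1 * r p) + Φ (-p.1 * r (-p.1, p.2))) :
    deriv Φ (σ * r (σ, w₀)) *
      ((r (σ, w₀) + σ * fderiv ℂ r (σ, w₀) (1, 0)) * (-σ * fderiv ℂ r (-σ, w₀) (0, 1)) +
        (σ * fderiv ℂ r (σ, w₀) (0, 1)) * (r (-σ, w₀) + -σ * fderiv ℂ r (-σ, w₀) (1, 0))) =
      fderiv ℂ T (σ, w₀) (1, 0) * (-σ * fderiv ℂ r (-σ, w₀) (0, 1)) +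
        fderiv ℂ T (σ, w₀) (0, 1) * (r (-σ, w₀) + -σ * fderiv ℂ r (-σ, w₀) (1, 0)) := by
  obtain ⟨m1, m2, _⟩ := hrel.self_of_nhds
  simp only at m1 m2
  have d1 : HasDerivAt Φ (deriv Φ (σ * r (σ, w₀))) (σ * r (σ, w₀)) :=
    (hΦ.differentiableAt ((isOpen_SD R).mem_nhds m1)).hasDerivAt
  have d2 : HasDerivAt Φ (deriv Φ (-σ * r (-σ, w₀))) (-σ * r (-σ, w₀)) :=
    (hΦ.differentiableAt ((isOpen_SD R).mem_nhds m2)).hasDerivAt
  -- direction σ
  have l1 : HasDerivAt (fun t : ℂ => (t, w₀)) ((1 : ℂ), (0 : ℂ)) σ :=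
    (hasDerivAt_id σ).prodMk (hasDerivAt_const σ w₀)
  have l2 : HasDerivAt (fun t : ℂ => (-t, w₀)) (-(1 : ℂ), (0 : ℂ)) σ :=
    (hasDerivAt_id σ).neg.prodMk (hasDerivAt_const σ w₀)
  have l3 : HasDerivAt (fun w : ℂ => (σ, w)) ((0 : ℂ), (1 : ℂ)) w₀ :=
    (hasDerivAt_const w₀ σ).prodMk (hasDerivAt_id w₀)
  have l4 : HasDerivAt (fun w : ℂ => (-σ, w)) ((0 : ℂ), (1 : ℂ)) w₀ :=
    (hasDerivAt_const w₀ (-σ)).prodMk (hasDerivAt_id w₀)
  have r1 : HasDerivAt (fun t : ℂ => r (t, w₀)) (fderiv ℂ r (σ, w₀) (1, 0)) σ :=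
    h1.hasFDerivAt.comp_hasDerivAt σ l1
  have r2 : HasDerivAt (fun t : ℂ => r (-t, w₀)) (-(fderiv ℂ r (-σ, w₀) (1, 0))) σ := by
    have := h2.hasFDerivAt.comp_hasDerivAt σ l2
    have e : ((-(1 : ℂ), (0 : ℂ)) : ℂ × ℂ) = -((1 : ℂ), (0 : ℂ)) := by simp
    rw [e, map_neg] at this
    exact this
  have r3 : HasDerivAt (fun w : ℂ => r (σ, w)) (fderiv ℂ r (σ, w₀) (0, 1)) w₀ :=
    h1.hasFDerivAt.comp_hasDerivAt w₀ l3
  have r4 : HasDerivAt (fun w : ℂ => r (-σ, w)) (fderiv ℂ r (-σ, w₀) (0, 1)) w₀ :=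
    h2.hasFDerivAt.comp_hasDerivAt w₀ l4
  have t1 : HasDerivAt (fun t : ℂ => T (t, w₀)) (fderiv ℂ T (σ, w₀) (1, 0)) σ :=
    h3.hasFDerivAt.comp_hasDerivAt σ l1
  have t2 : HasDerivAt (fun w : ℂ => T (σ, w)) (fderiv ℂ T (σ, w₀) (0, 1)) w₀ :=
    h3.hasFDerivAt.comp_hasDerivAt w₀ l3
  have q1 : HasDerivAt (fun t : ℂ => t * r (t, w₀))
      (r (σ, w₀) + σ * fderiv ℂ r (σ, w₀) (1, 0)) σ := by
    exact ((hasDerivAt_id' σ).fun_mul r1).congr_deriv (by ring)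
  have q2 : HasDerivAt (fun t : ℂ => -t * r (-t, w₀))
      (-(r (-σ, w₀) + -σ * fderiv ℂ r (-σ, w₀) (1, 0))) σ := by
    exact ((hasDerivAt_id' σ).fun_neg.fun_mul r2).congr_deriv (by ring)
  have q3 : HasDerivAt (fun w : ℂ => σ * r (σ, w)) (σ * fderiv ℂ r (σ, w₀) (0, 1)) w₀ :=
    r3.const_mul σ
  have q4 : HasDerivAt (fun w : ℂ => -σ * r (-σ, w)) (-σ * fderiv ℂ r (-σ, w₀) (0, 1)) w₀ :=
    r4.const_mul (-σ)
  have e1 : (fun t : ℂ => T (t, w₀)) =ᶠ[𝓝 σ]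
      fun t => Φ (t * r (t, w₀)) + Φ (-t * r (-t, w₀)) := by
    have hc : Tendsto (fun t : ℂ => (t, w₀)) (𝓝 σ) (𝓝 (σ, w₀)) := l1.continuousAt
    filter_upwards [hc.eventually hrel] with t ht
    exact ht.2.2
  have e2 : (fun w : ℂ => T (σ, w)) =ᶠ[𝓝 w₀]
      fun w => Φ (σ * r (σ, w)) + Φ (-σ * r (-σ, w)) := by
    have hc : Tendsto (fun w : ℂ => (σ, w)) (𝓝 w₀) (𝓝 (σ, w₀)) := l3.continuousAt
    filter_upwards [hc.eventually hrel] with t ht
    exact ht.2.2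
  have c1 := ((d1.comp σ q1).add (d2.comp σ q2)).congr_of_eventuallyEq e1
  have c2 := ((HasDerivAt.comp w₀ (h₂ := Φ) (h := fun w => σ * r (σ, w)) d1 q3).add
    (HasDerivAt.comp w₀ (h₂ := Φ) (h := fun w => -σ * r (-σ, w)) d2 q4)).congr_of_eventuallyEq e2
  have E1 := t1.unique c1
  have E2 := t2.unique c2
  rw [E1, E2]
  ring

/-- **Core of [ISO].** -/
theorem iso_core {Φ : ℂ → ℂ} {R : ℝ} (hR : 0 < R) (hΦ : DifferentiableOn ℂ Φ (SD R))
    {r T : ℂ × ℂ → ℂ} {w₀ : ℂ} (hr : AnalyticAt ℂ r (0, w₀)) (hT : AnalyticAt ℂ T (0, w₀))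
    (hr0 : r (0, w₀) ≠ 0)
    (hD : 2 * r (0, w₀) * deriv (fun σ => fderiv ℂ r (σ, w₀) (0, 1)) 0 -
      4 * deriv (fun σ => r (σ, w₀)) 0 * fderiv ℂ r (0, w₀) (0, 1) ≠ 0)
    (hrel : ∀ᶠ σ : ℂ in 𝓝 0, σ.im < 0 → ∀ᶠ p : ℂ × ℂ in 𝓝 (σ, w₀),
      p.1 * r p ∈ SD R ∧ -p.1 * r (-p.1, p.2) ∈ SD R ∧
      T p = Φ (p.1 * r p) + Φ (-p.1 * r (-p.1, p.2))) :
    ∃ (A : ℂ) (R' : ℝ) (F : ℂ → ℂ), 0 < R' ∧ R' ≤ R ∧ DifferentiableOn ℂ F (ball 0 R') ∧
      ∀ z ∈ SD R', Φ z = A / z + F z := by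
  -- one-variable functions
  set ρ : ℂ → ℂ := fun σ => r (σ, w₀) with hρ
  set rw' : ℂ → ℂ := fun σ => fderiv ℂ r (σ, w₀) (0, 1) with hrw
  set rs : ℂ → ℂ := fun σ => fderiv ℂ r (σ, w₀) (1, 0) with hrs
  set Ts : ℂ → ℂ := fun σ => fderiv ℂ T (σ, w₀) (1, 0) with hTs
  set Tw : ℂ → ℂ := fun σ => fderiv ℂ T (σ, w₀) (0, 1) with hTw
  have hline : AnalyticAt ℂ (fun σ : ℂ => (σ, w₀)) 0 := analyticAt_id.prod analyticAt_const
  have aρ : AnalyticAt ℂ ρ 0 := AnalyticAt.comp (g := r) (f := fun σ : ℂ => (σ, w₀)) hr hline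
  have afr : AnalyticAt ℂ (fun σ : ℂ => fderiv ℂ r (σ, w₀)) 0 :=
    AnalyticAt.comp (g := fderiv ℂ r) (f := fun σ : ℂ => (σ, w₀)) hr.fderiv hline
  have afT : AnalyticAt ℂ (fun σ : ℂ => fderiv ℂ T (σ, w₀)) 0 :=
    AnalyticAt.comp (g := fderiv ℂ T) (f := fun σ : ℂ => (σ, w₀)) hT.fderiv hline
  have aap : ∀ (L : ℂ → (ℂ × ℂ →L[ℂ] ℂ)), AnalyticAt ℂ L 0 → ∀ v : ℂ × ℂ,
      AnalyticAt ℂ (fun σ => L σ v) 0 := fun L hL v =>
    ((ContinuousLinearMap.apply ℂ ℂ v).analyticAt _).comp hL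
  have arw : AnalyticAt ℂ rw' 0 := aap _ afr _
  have ars : AnalyticAt ℂ rs 0 := aap _ afr _
  have aTs : AnalyticAt ℂ Ts 0 := aap _ afT _
  have aTw : AnalyticAt ℂ Tw 0 := aap _ afT _
  have hneg : AnalyticAt ℂ (fun σ : ℂ => -σ) 0 := analyticAt_id.neg
  have aneg : ∀ {f : ℂ → ℂ}, AnalyticAt ℂ f 0 → AnalyticAt ℂ (fun σ => f (-σ)) 0 := by
    intro f hf
    have : AnalyticAt ℂ f (-(0 : ℂ)) := by simpa using hf
    exact AnalyticAt.comp (g := f) (f := fun σ : ℂ => -σ) this hneg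
  -- differentiability near 0
  have hrd : ∀ᶠ σ : ℂ in 𝓝 0, DifferentiableAt ℂ r (σ, w₀) := by
    have := hr.eventually_analyticAt
    have hc : Tendsto (fun t : ℂ => (t, w₀)) (𝓝 0) (𝓝 (0, w₀)) := hline.continuousAt
    filter_upwards [hc.eventually this] with σ hσ
    exact hσ.differentiableAt
  have hTd : ∀ᶠ σ : ℂ in 𝓝 0, DifferentiableAt ℂ T (σ, w₀) := by
    have := hT.eventually_analyticAt
    have hc : Tendsto (fun t : ℂ => (t, w₀)) (𝓝 0) (𝓝 (0, w₀)) := hline.continuousAt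
    filter_upwards [hc.eventually this] with σ hσ
    exact hσ.differentiableAt
  have tneg : Tendsto (fun σ : ℂ => -σ) (𝓝 0) (𝓝 0) := by
    have := hneg.continuousAt.tendsto
    simpa using this
  -- the function g
  set g : ℂ → ℂ := fun σ => rw' σ * ρ (-σ) - ρ σ * rw' (-σ) with hg
  have ag : AnalyticAt ℂ g 0 := (arw.mul (aneg aρ)).sub (aρ.mul (aneg arw))
  have g0 : g 0 = 0 := by simp only [hg, neg_zero]; ring
  have ads : AnalyticAt ℂ (dslope g 0) 0 := by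
    obtain ⟨p, hp⟩ := ag
    exact ⟨_, hp.has_fpower_series_dslope_fslope⟩
  set D : ℂ → ℂ := fun σ => dslope g 0 σ - (rs σ * rw' (-σ) + rw' σ * rs (-σ)) with hDdef
  have aD : AnalyticAt ℂ D 0 := ads.sub ((ars.mul (aneg arw)).add (arw.mul (aneg ars)))
  have dρ : HasDerivAt ρ (deriv ρ 0) 0 := aρ.differentiableAt.hasDerivAt
  have drw : HasDerivAt rw' (deriv rw' 0) 0 := arw.differentiableAt.hasDerivAt
  have dneg : ∀ {f : ℂ → ℂ} {f' : ℂ}, HasDerivAt f f' 0 → HasDerivAt (fun σ => f (-σ)) (-f') 0 := by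
    intro f f' hf
    have h1 : HasDerivAt f f' (-(0 : ℂ)) := by simpa using hf
    have := HasDerivAt.comp (0 : ℂ) (h₂ := f) (h := fun σ => -σ) h1 (hasDerivAt_id (0 : ℂ)).neg
    simp only [mul_neg, mul_one] at this
    exact this
  have rs0 : rs 0 = deriv ρ 0 := by
    have h1 : HasDerivAt ρ (rs 0) 0 := by
      have l1 : HasDerivAt (fun t : ℂ => (t, w₀)) ((1 : ℂ), (0 : ℂ)) 0 :=
        (hasDerivAt_id (0 : ℂ)).prodMk (hasDerivAt_const (0 : ℂ) w₀)
      exact hr.differentiableAt.hasFDerivAt.comp_hasDerivAt 0 l1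
    exact h1.deriv.symm
  have D0 : D 0 ≠ 0 := by
    have h1 : deriv g 0 = 2 * ρ 0 * deriv rw' 0 - 2 * deriv ρ 0 * rw' 0 := by
      have := (drw.mul (dneg dρ)).sub (dρ.mul (dneg drw))
      refine this.deriv.trans ?_
      simp only [neg_zero]
      ring
    have h2 : D 0 = 2 * ρ 0 * deriv rw' 0 - 4 * deriv ρ 0 * rw' 0 := by
      simp only [hDdef, dslope_same, h1, neg_zero, rs0]
      ring
    rw [h2]
    exact hD
  -- numerator
  set N : ℂ → ℂ := fun σ => Ts σ * (-σ * rw' (-σ)) + Tw σ * (ρ (-σ) + -σ * rs (-σ)) with hN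
  have aN : AnalyticAt ℂ N 0 :=
    (aTs.mul (hneg.mul (aneg arw))).add (aTw.mul ((aneg aρ).add (hneg.mul (aneg ars))))
  have key : ∀ᶠ σ : ℂ in 𝓝 0, σ.im < 0 → deriv Φ (σ * ρ σ) * (σ ^ 2 * D σ) = N σ := by
    filter_upwards [hrel, hrd, tneg.eventually hrd, hTd] with σ h1 h2 h3 h4 h5
    have := elim_identity hΦ h2 h3 h4 (h1 h5)
    have hs : σ * dslope g 0 σ = g σ := by
      have := sub_smul_dslope g 0 σ
      simpa [g0] using this
    have e : σ ^ 2 * D σ = (ρ σ + σ * rs σ) * (-σ * rw' (-σ)) +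
        (σ * rw' σ) * (ρ (-σ) + -σ * rs (-σ)) := by
      have : σ ^ 2 * D σ = σ * (σ * dslope g 0 σ) - σ ^ 2 * (rs σ * rw' (-σ) + rw' σ * rs (-σ)) := by
        simp only [hDdef]; ring
      rw [this, hs]
      simp only [hg]
      ring
    rw [e]
    exact this
  -- local inverse of q
  set q : ℂ → ℂ := fun σ => σ * ρ σ with hq
  have aq : AnalyticAt ℂ q 0 := analyticAt_id.mul aρ
  have dq : deriv q 0 = ρ 0 := by
    have := (hasDerivAt_id (0 : ℂ)).mul dρ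
    refine this.deriv.trans ?_
    simp
  have hq0 : q 0 = 0 := by simp [hq]
  have dq0 : deriv q 0 ≠ 0 := by rw [dq]; exact hr0
  set ψ : ℂ → ℂ := aq.hasStrictDerivAt.localInverse _ _ _ dq0 with hψ
  have aψ : AnalyticAt ℂ ψ 0 := by
    have := aq.analyticAt_localInverse dq0
    rwa [hq0] at this
  have ψl : ∀ᶠ σ in 𝓝 0, ψ (q σ) = σ := HasStrictDerivAt.eventually_left_inverse _ dq0
  have ψr : ∀ᶠ y in 𝓝 0, q (ψ y) = y := by
    have := HasStrictDerivAt.eventually_right_inverse (f := q) (a := 0)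
      aq.hasStrictDerivAt dq0
    rwa [hq0] at this
  have ψ0 : ψ 0 = 0 := by
    have := ψl.self_of_nhds
    rwa [hq0] at this
  -- the analytic function G = y² Φ'(y)
  set G : ℂ → ℂ := fun y => N (ψ y) / D (ψ y) * ρ (ψ y) ^ 2 with hG
  have acomp : ∀ {f : ℂ → ℂ}, AnalyticAt ℂ f 0 → AnalyticAt ℂ (fun y => f (ψ y)) 0 := by
    intro f hf
    have : AnalyticAt ℂ f (ψ 0) := by rw [ψ0]; exact hf
    exact AnalyticAt.comp (g := f) (f := ψ) this aψ
  have aG : AnalyticAt ℂ G 0 := by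
    refine ((acomp aN).div (acomp aD) ?_).mul ((acomp aρ).pow 2)
    simp only [ψ0]
    exact D0
  obtain ⟨R₁, hR₁, hGd⟩ : ∃ R₁ > 0, DifferentiableOn ℂ G (ball 0 R₁) := by
    obtain ⟨ε, hε, h⟩ := Metric.eventually_nhds_iff_ball.1 aG.eventually_analyticAt
    exact ⟨ε, hε, fun z hz => (h z hz).differentiableAt.differentiableWithinAt⟩
  set R' : ℝ := min R R₁ with hR'
  have hR'0 : 0 < R' := lt_min hR hR₁
  have hsub : SD R' ⊆ SD R := fun z hz => ⟨lt_of_lt_of_le hz.1 (min_le_left _ _), hz.2⟩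
  have hGd' : DifferentiableOn ℂ G (ball 0 R') := hGd.mono (ball_subset_ball (min_le_right _ _))
  have hΦ' : DifferentiableOn ℂ Φ (SD R') := hΦ.mono hsub
  -- a point
  have hD' : ∀ᶠ σ in 𝓝 (0 : ℂ), D σ ≠ 0 := aD.continuousAt.eventually_ne D0
  have hseq : ∃ᶠ σ : ℂ in 𝓝 0, σ.im < 0 := by
    rw [Filter.frequently_iff]
    intro U hU
    obtain ⟨ε, hε, h⟩ := Metric.mem_nhds_iff.1 hU
    refine ⟨-(ε / 2 : ℝ) * I, h ?_, ?_⟩
    · rw [mem_ball_zero_iff, norm_mul, norm_I, mul_one, norm_neg, norm_real, Real.norm_eq_abs,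
        abs_of_pos (by positivity)]
      linarith
    · simp
      positivity
  have tq : Tendsto q (𝓝 0) (𝓝 0) := by
    have := aq.continuousAt.tendsto
    rwa [hq0] at this
  have hall : ∀ᶠ σ : ℂ in 𝓝 0, σ.im < 0 → (q σ ∈ SD R' ∧ (q σ) ^ 2 * deriv Φ (q σ) = G (q σ)) := by
    have hb : ∀ᶠ σ in 𝓝 (0 : ℂ), q σ ∈ ball (0 : ℂ) R' := tq.eventually (ball_mem_nhds 0 hR'0)
    filter_upwards [key, ψl, hD', hrel, hb] with σ h1 h2 h3 h4 h5 h6
    have h7 := (h4 h6).self_of_nhds.1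
    refine ⟨⟨by simpa [mem_ball_zero_iff] using h5, h7.2⟩, ?_⟩
    have h8 := h1 h6
    simp only [hG, h2]
    have h9 : deriv Φ (q σ) * σ ^ 2 = N σ / D σ := by
      rw [eq_div_iff h3]
      rw [← h8]
      simp only [hq]
      ring
    rw [← h9]
    simp only [hq]
    ring
  obtain ⟨σ₁, hσ₁, hev⟩ : ∃ σ₁ : ℂ, σ₁.im < 0 ∧ (∀ᶠ σ in 𝓝 σ₁, σ.im < 0 →
      (q σ ∈ SD R' ∧ (q σ) ^ 2 * deriv Φ (q σ) = G (q σ))) ∧ ContinuousAt ψ (q σ₁) ∧
      ψ (q σ₁) = σ₁ ∧ ∀ᶠ y in 𝓝 (q σ₁), q (ψ y) = y := by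
    have h1 := hall.eventually_nhds
    have h2 : ∀ᶠ σ in 𝓝 (0 : ℂ), ContinuousAt ψ (q σ) := by
      have := aψ.eventually_analyticAt
      filter_upwards [tq.eventually this] with σ hσ
      exact hσ.continuousAt
    have h3 : ∀ᶠ σ in 𝓝 (0 : ℂ), ∀ᶠ y in 𝓝 (q σ), q (ψ y) = y := tq.eventually ψr.eventually_nhds
    obtain ⟨σ₁, a, b⟩ := (hseq.and_eventually (h1.and (h2.and (ψl.and h3)))).exists
    exact ⟨σ₁, a, b.1, b.2.1, b.2.2.1, b.2.2.2⟩
  obtain ⟨hev1, hcψ, hψ1, hqψ⟩ := hev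
  have hy₁ : q σ₁ ∈ SD R' := (hev1.self_of_nhds hσ₁).1
  have hagree : (fun y => y ^ 2 * deriv Φ y) =ᶠ[𝓝 (q σ₁)] G := by
    have t1 : Tendsto ψ (𝓝 (q σ₁)) (𝓝 σ₁) := by
      have := hcψ.tendsto
      rwa [hψ1] at this
    have him : ∀ᶠ σ in 𝓝 σ₁, σ.im < 0 :=
      continuous_im.continuousAt.eventually (gt_mem_nhds hσ₁)
    filter_upwards [t1.eventually hev1, t1.eventually him, hqψ] with y h1 h2 h3
    have := (h1 h2).2
    rw [h3] at this
    exact this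
  have hEq : EqOn (fun y => y ^ 2 * deriv Φ y) G (SD R') := by
    have k1 : AnalyticOnNhd ℂ (fun y => y ^ 2 * deriv Φ y) (SD R') := by
      have h1 : AnalyticOnNhd ℂ Φ (SD R') := hΦ'.analyticOnNhd (isOpen_SD R')
      intro z hz
      have h0 : AnalyticAt ℂ (fun y : ℂ => y ^ 2) z := analyticAt_id.pow 2
      exact h0.mul (h1.deriv z hz)
    have k2 : AnalyticOnNhd ℂ G (SD R') := by
      intro z hz
      exact (hGd'.analyticOnNhd isOpen_ball) z (by simpa [mem_ball_zero_iff] using hz.1)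
    exact k1.eqOn_of_preconnected_of_eventuallyEq k2 (isPreconnected_SD hR'0) hy₁ hagree
  -- decomposition of G
  set G1 : ℂ → ℂ := dslope G 0 with hG1
  set G2 : ℂ → ℂ := dslope G1 0 with hG2
  have hnb : ball (0 : ℂ) R' ∈ 𝓝 (0 : ℂ) := ball_mem_nhds 0 hR'0
  have dG1 : DifferentiableOn ℂ G1 (ball 0 R') := (differentiableOn_dslope hnb).2 hGd'
  have dG2 : DifferentiableOn ℂ G2 (ball 0 R') := (differentiableOn_dslope hnb).2 dG1
  have hGexp : ∀ y, G y = G 0 + G1 0 * y + y ^ 2 * G2 y := by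
    intro y
    have h1 : y * G1 y = G y - G 0 := by
      have := sub_smul_dslope G 0 y
      simpa using this
    have h2 : y * G2 y = G1 y - G1 0 := by
      have := sub_smul_dslope G1 0 y
      simpa using this
    have h3 : y ^ 2 * G2 y = y * (y * G2 y) := by ring
    rw [h3, h2]
    have h4 : y * (G1 y - G1 0) = y * G1 y - y * G1 0 := by ring
    rw [h4, h1]
    ring
  obtain ⟨F₀, hF₀⟩ := dG2.isExactOn_ball
  -- derivative of the difference vanishes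
  set Hd : ℂ → ℂ := fun y => Φ y + G 0 / y - G1 0 * log y - F₀ y with hHd
  have hHder : ∀ y ∈ SD R', HasDerivAt Hd 0 y := by
    intro y hy
    have hy0 : y ≠ 0 := slitPlane_ne_zero hy.2
    have h1 : HasDerivAt Φ (deriv Φ y) y :=
      (hΦ'.differentiableAt ((isOpen_SD R').mem_nhds hy)).hasDerivAt
    have h2 : HasDerivAt (fun y : ℂ => G 0 / y) (-(G 0) / y ^ 2) y := by
      have := (hasDerivAt_inv hy0).const_mul (G 0)
      refine (this.congr_deriv ?_).congr_of_eventuallyEq ?_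
      · field_simp
      · filter_upwards with z
        rw [div_eq_mul_inv]
    have h3 : HasDerivAt (fun y : ℂ => G1 0 * log y) (G1 0 * y⁻¹) y :=
      (hasDerivAt_log hy.2).const_mul (G1 0)
    have h4 : HasDerivAt F₀ (G2 y) y := hF₀ y (by simpa [mem_ball_zero_iff] using hy.1)
    refine (((h1.add h2).sub h3).sub h4).congr_deriv ?_
    have h5 : y ^ 2 * deriv Φ y = G y := hEq hy
    rw [hGexp y] at h5
    have h6 : deriv Φ y = (G 0 + G1 0 * y + y ^ 2 * G2 y) / y ^ 2 := by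
      rw [eq_div_iff (pow_ne_zero 2 hy0), ← h5]
      ring
    rw [h6]
    field_simp
    ring
  obtain ⟨C, hC⟩ : ∃ C, ∀ y ∈ SD R', Hd y = C := by
    refine ⟨Hd (q σ₁), fun y hy => ?_⟩
    have hd : DifferentiableOn ℂ Hd (SD R') := fun z hz =>
      (hHder z hz).differentiableAt.differentiableWithinAt
    exact (isOpen_SD R').is_const_of_deriv_eq_zero (isPreconnected_SD hR'0) hd
      (fun z hz => (hHder z hz).deriv) hy hy₁
  have hΦform : ∀ y ∈ SD R', Φ y = -G 0 / y + G1 0 * log y + (F₀ y + C) := by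
    intro y hy
    have := hC y hy
    simp only [hHd] at this
    have h1 : Φ y = C - G 0 / y + G1 0 * log y + F₀ y := by rw [← this]; ring
    rw [h1]
    ring
  -- the residue vanishes
  have hres : G1 0 = 0 := by
    by_contra hne
    set l : Filter ℂ := 𝓝 0 ⊓ 𝓟 {σ : ℂ | σ.im < 0} with hl
    have hlne : l.NeBot := by
      rw [hl]
      exact Filter.frequently_mem_iff_neBot.1 hseq
    have hl0 : l ≤ 𝓝 0 := inf_le_left
    have hlim : ∀ᶠ σ in l, σ.im < 0 := mem_inf_of_right (mem_principal_self _)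
    have hsmall : ∀ᶠ σ in l, -σ * ρ (-σ) ∈ ball (0 : ℂ) R' := by
      have h1 : Tendsto (fun σ => q (-σ)) (𝓝 0) (𝓝 0) := tq.comp tneg
      have := h1.eventually hnb
      exact (hl0 this)
    have hmain : ∀ᶠ σ in l, G1 0 * (log (σ * ρ σ) + log (-σ * ρ (-σ))) =
        T (σ, w₀) + G 0 * dslope (fun σ => 1 / ρ σ - 1 / ρ (-σ)) 0 σ - F₀ (q σ) - F₀ (q (-σ))
          - 2 * C := by
      have hρne : ∀ᶠ σ in 𝓝 (0 : ℂ), ρ σ ≠ 0 := aρ.continuousAt.eventually_ne hr0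
      filter_upwards [hl0 hrel, hlim, hl0 hall, hsmall, hl0 hρne, hl0 (tneg.eventually hρne)] with
        σ h1 h2 h3 h4 h5 h6
      obtain ⟨a1, a2, a3⟩ := (h1 h2).self_of_nhds
      simp only at a1 a2 a3
      have b1 := (h3 h2).1
      have b2 : -σ * ρ (-σ) ∈ SD R' := ⟨by simpa [mem_ball_zero_iff] using h4, a2.2⟩
      have hσ0 : σ ≠ 0 := by
        rintro rfl
        simp at h2
      have f1 := hΦform _ b1
      have f2 := hΦform _ b2
      have a3' : T (σ, w₀) = Φ (q σ) + Φ (-σ * ρ (-σ)) := a3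
      have hds : dslope (fun σ => 1 / ρ σ - 1 / ρ (-σ)) 0 σ = (1 / ρ σ - 1 / ρ (-σ)) / σ := by
        rw [dslope_of_ne _ hσ0, slope_def_field]
        simp
      rw [a3', f1, f2, hds]
      have hq' : q (-σ) = -σ * ρ (-σ) := rfl
      rw [hq']
      simp only [hq]
      field_simp
      ring
    have hT' : Tendsto (fun σ => T (σ, w₀) + G 0 * dslope (fun σ => 1 / ρ σ - 1 / ρ (-σ)) 0 σ
        - F₀ (q σ) - F₀ (q (-σ)) - 2 * C) l
        (𝓝 (T (0, w₀) + G 0 * dslope (fun σ => 1 / ρ σ - 1 / ρ (-σ)) 0 0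
          - F₀ (q 0) - F₀ (q (-0)) - 2 * C)) := by
      have c1 : ContinuousAt (fun σ : ℂ => T (σ, w₀)) 0 :=
        (AnalyticAt.comp (g := T) (f := fun σ : ℂ => (σ, w₀)) hT hline).continuousAt
      have c2 : ContinuousAt (dslope (fun σ => 1 / ρ σ - 1 / ρ (-σ)) 0) 0 := by
        rw [continuousAt_dslope_same]
        have ha : AnalyticAt ℂ (fun σ => 1 / ρ σ - 1 / ρ (-σ)) 0 := by
          refine (analyticAt_const.div aρ hr0).sub (analyticAt_const.div (aneg aρ) ?_)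
          simpa using hr0
        exact ha.differentiableAt
      have cF : ContinuousAt F₀ 0 := (hF₀ 0 (mem_ball_self hR'0)).continuousAt
      have c3 : ContinuousAt (fun σ => F₀ (q σ)) 0 := by
        have : ContinuousAt F₀ (q 0) := by rw [hq0]; exact cF
        exact ContinuousAt.comp (f := q) this aq.continuousAt
      have c4 : ContinuousAt (fun σ => F₀ (q (-σ))) 0 := by
        have h1 : ContinuousAt (fun σ => F₀ (q σ)) (-(0 : ℂ)) := by simpa using c3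
        exact ContinuousAt.comp (g := fun σ => F₀ (q σ)) (f := fun σ : ℂ => -σ) h1
          hneg.continuousAt
      have c5 : ContinuousAt (fun σ : ℂ => G 0 * dslope (fun σ => 1 / ρ σ - 1 / ρ (-σ)) 0 σ) 0 :=
        c2.const_mul (G 0)
      have c6 : ContinuousAt (fun _ : ℂ => 2 * C) (0 : ℂ) := continuousAt_const
      have := ((((c1.add c5).sub c3).sub c4).sub c6).tendsto
      exact this.mono_left hl0
    have hT2 : Tendsto (fun σ => log (σ * ρ σ) + log (-σ * ρ (-σ))) l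
        (𝓝 ((T (0, w₀) + G 0 * dslope (fun σ => 1 / ρ σ - 1 / ρ (-σ)) 0 0
          - F₀ (q 0) - F₀ (q (-0)) - 2 * C) / G1 0)) := by
      have := hT'.div_const (G1 0)
      refine this.congr' ?_
      filter_upwards [hmain] with σ hσ
      rw [← hσ]
      field_simp
    have hT3 := (continuous_re.tendsto _).comp hT2
    have hT4 : Tendsto (fun σ => (log (σ * ρ σ) + log (-σ * ρ (-σ))).re) l atBot := by
      have e : ∀ σ, (log (σ * ρ σ) + log (-σ * ρ (-σ))).re =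
          Real.log ‖σ * ρ σ‖ + Real.log ‖-σ * ρ (-σ)‖ := by
        intro σ
        rw [add_re, log_re, log_re]
      simp only [e]
      have n1 : Tendsto (fun σ : ℂ => ‖σ * ρ σ‖) l (𝓝[>] 0) := by
        rw [tendsto_nhdsWithin_iff]
        constructor
        · have := (tq.norm).mono_left hl0
          rw [norm_zero] at this
          exact this
        · filter_upwards [hl0 hall, hlim] with σ h1 h2
          exact norm_pos_iff.2 (slitPlane_ne_zero (h1 h2).1.2)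
      have n2 : Tendsto (fun σ : ℂ => ‖-σ * ρ (-σ)‖) l (𝓝[>] 0) := by
        rw [tendsto_nhdsWithin_iff]
        constructor
        · have := ((tq.comp tneg).norm).mono_left hl0
          rw [norm_zero] at this
          exact this
        · filter_upwards [hl0 hrel, hlim] with σ h1 h2
          exact norm_pos_iff.2 (slitPlane_ne_zero ((h1 h2).self_of_nhds.2.1).2)
      have m1 := Real.tendsto_log_nhdsGT_zero.comp n1
      have m2 := Real.tendsto_log_nhdsGT_zero.comp n2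
      exact m1.atBot_add_atBot m2
    exact not_tendsto_atBot_of_tendsto_nhds hT3 hT4
  refine ⟨-G 0, R', fun y => F₀ y + C, hR'0, min_le_left _ _, ?_, ?_⟩
  · intro z hz
    exact ((hF₀ z hz).differentiableAt.add_const C).differentiableWithinAt
  · intro z hz
    rw [hΦform z hz, hres]
    ring

end Vale.Agent.P097.H896
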