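import Vale.Agent.P097.LR.Defs
import Vale.Agent.P097.H896.IsoCore
import Vale.Agent.P097.H407.Hol

/-! # P097 / H896 : block [ISO] -/

set_option linter.all false

namespace Vale.Agent.P097.H896

open Complex Metric Set Filter Topology
open Vale.Agent.P097 Vale.Agent.P097.LR

theorem mem_SB_iff {s u ζ : ℂ} {R : ℝ} (hu : u ≠ 0) :
    ζ ∈ SB s u R ↔ -(ζ - s) / u ∈ SD (R / ‖u‖) := by
  have hu' : 0 < ‖u‖ := norm_pos_iff.2 hu
  have h1 : ‖-(ζ - s) / u‖ < R / ‖u‖ ↔ ‖ζ - s‖ < R := by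
    rw [norm_div, norm_neg, div_lt_div_iff_of_pos_right hu']
  have h2 : -(ζ - s) / u ∈ slitPlane ↔ ∀ p : ℝ, 0 ≤ p → ζ - s ≠ p * u := by
    rw [mem_slitPlane_iff]
    constructor
    · intro h p hp he
      have : -(ζ - s) / u = ((-p : ℝ) : ℂ) := by
        rw [he]; push_cast; field_simp
      rw [this] at h
      simp only [ofReal_re, ofReal_im, ne_eq, not_true_eq_false, or_false] at h
      linarith
    · intro h
      by_contra hc
      push Not at hc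
      refine h (-(-(ζ - s) / u).re) (by linarith [hc.1]) ?_
      have h3 : -(ζ - s) / u = (((-(ζ - s) / u).re : ℝ) : ℂ) := by
        apply Complex.ext
        · simp
        · rw [hc.2, ofReal_im]
      have h4 : ζ - s = -(-(ζ - s) / u) * u := by field_simp
      rw [ofReal_neg, ← h3]
      exact h4
  show ‖ζ - s‖ < R ∧ (∀ p : ℝ, 0 ≤ p → ζ - s ≠ p * u) ↔
    ‖-(ζ - s) / u‖ < R / ‖u‖ ∧ -(ζ - s) / u ∈ slitPlane
  rw [h1, h2]

theorem iso : LR.ISO := by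
  intro x₁ κ r s₁ Z tI U hI R Φ hR hΦ hyp
  set u : ℂ := U 0 0 with hu
  have hu0 : u ≠ 0 := hI.U0
  have hun : 0 < ‖u‖ := norm_pos_iff.2 hu0
  have hκ := hI.hκ
  have hr := hI.hr
  -- the normalised function
  set Ψ : ℂ → ℂ := fun z => Φ (s₁ - u * z) with hΨ
  have hback : ∀ z : ℂ, -((s₁ - u * z) - s₁) / u = z := by
    intro z; field_simp; ring
  have hmaps : ∀ z : ℂ, ∀ R₀ : ℝ, z ∈ SD (R₀ / ‖u‖) ↔ s₁ - u * z ∈ SB s₁ u R₀ := by
    intro z R₀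
    rw [mem_SB_iff hu0, hback]
  have hΨd : DifferentiableOn ℂ Ψ (SD (R / ‖u‖)) := by
    refine DifferentiableOn.comp (g := Φ) (f := fun z => s₁ - u * z) hΦ ?_ ?_
    · fun_prop
    · intro z hz
      exact (hmaps z R).1 hz
  -- the function g
  set V : ℂ × ℂ → ℂ := fun p => U (p.1 + p.2 / 2) p.2 with hV
  set g : ℂ × ℂ → ℂ := fun p => -(p.1 + p.2) * V p / u with hg
  have hUopen : IsOpen {p : ℂ × ℂ | ‖p.1‖ < κ ∧ ‖p.2‖ < r} :=
    (isOpen_lt continuous_fst.norm continuous_const).inter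
      (isOpen_lt continuous_snd.norm continuous_const)
  have hUan : ∀ p : ℂ × ℂ, ‖p.1‖ < κ → ‖p.2‖ < r →
      AnalyticAt ℂ (fun p : ℂ × ℂ => U p.1 p.2) p := fun p h1 h2 =>
    Vale.Agent.P097.Hol.analyticAt_of_differentiableOn hUopen hI.dU ⟨h1, h2⟩
  have hVan : ∀ p : ℂ × ℂ, ‖p.1 + p.2 / 2‖ < κ → ‖p.2‖ < r → AnalyticAt ℂ V p := by
    intro p h1 h2
    have hl : AnalyticAt ℂ (fun p : ℂ × ℂ => (p.1 + p.2 / 2, p.2)) p :=
      (analyticAt_fst.add (analyticAt_snd.div analyticAt_const two_ne_zero)).prod analyticAt_snd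
    exact AnalyticAt.comp (g := fun p : ℂ × ℂ => U p.1 p.2)
      (f := fun p : ℂ × ℂ => (p.1 + p.2 / 2, p.2)) (hUan _ h1 h2) hl
  have hgan : ∀ p : ℂ × ℂ, ‖p.1 + p.2 / 2‖ < κ → ‖p.2‖ < r → AnalyticAt ℂ g p := by
    intro p h1 h2
    have h3 := hVan p h1 h2
    have hl : AnalyticAt ℂ (fun p : ℂ × ℂ => -(p.1 + p.2)) p :=
      (analyticAt_fst.add analyticAt_snd).neg
    exact (hl.mul h3).div analyticAt_const hu0
  have hgan0 : AnalyticAt ℂ g (0, 0) := hgan (0, 0) (by simpa using hκ) (by simpa using hr)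
  -- values at the origin
  have hV0 : V (0, 0) = u := by simp [hV, hu]
  have hVd : DifferentiableAt ℂ V (0, 0) :=
    (hVan (0, 0) (by simpa using hκ) (by simpa using hr)).differentiableAt
  have hg' : fderiv ℂ g (0, 0) = -(ContinuousLinearMap.fst ℂ ℂ ℂ + ContinuousLinearMap.snd ℂ ℂ ℂ) := by
    have hl : HasFDerivAt (fun p : ℂ × ℂ => -(p.1 + p.2))
        (-(ContinuousLinearMap.fst ℂ ℂ ℂ + ContinuousLinearMap.snd ℂ ℂ ℂ)) ((0 : ℂ), (0 : ℂ)) :=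
      (hasFDerivAt_fst.add hasFDerivAt_snd).neg
    have h1 := (hl.mul hVd.hasFDerivAt).mul_const u⁻¹
    have h2 : HasFDerivAt g (-(ContinuousLinearMap.fst ℂ ℂ ℂ + ContinuousLinearMap.snd ℂ ℂ ℂ))
        ((0 : ℂ), (0 : ℂ)) := by
      refine (h1.congr_fderiv ?_).congr_of_eventuallyEq ?_
      · simp only [hV0]
        ext <;> simp [hu0]
      · filter_upwards with p
        simp only [hg, div_eq_mul_inv, Pi.mul_apply]
    exact h2.fderiv
  -- the function k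
  set P : ℂ × ℂ → ℂ := fun p => fderiv ℂ g p (0, 1) with hP
  have hPan : ∀ p : ℂ × ℂ, AnalyticAt ℂ g p → AnalyticAt ℂ P p := by
    intro p hp
    exact ((ContinuousLinearMap.apply ℂ ℂ ((0 : ℂ), (1 : ℂ))).analyticAt _).comp hp.fderiv
  set k : ℂ → ℂ := fun w => 2 * g (0, w) * fderiv ℂ P (0, w) (1, 0) -
    4 * fderiv ℂ g (0, w) (1, 0) * P (0, w) with hk
  have hline : ∀ w : ℂ, AnalyticAt ℂ (fun w : ℂ => ((0 : ℂ), w)) w := fun w =>
    analyticAt_const.prod analyticAt_id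
  have hcont : ∀ {f : ℂ × ℂ → ℂ}, AnalyticAt ℂ f (0, 0) → ContinuousAt (fun w => f (0, w)) 0 := by
    intro f hf
    exact (AnalyticAt.comp (g := f) (f := fun w : ℂ => ((0 : ℂ), w)) hf (hline 0)).continuousAt
  have hap : ∀ {f : ℂ × ℂ → ℂ}, AnalyticAt ℂ f (0, 0) → ∀ v : ℂ × ℂ,
      AnalyticAt ℂ (fun p => fderiv ℂ f p v) (0, 0) := by
    intro f hf v
    exact ((ContinuousLinearMap.apply ℂ ℂ v).analyticAt _).comp hf.fderiv
  have hkc : ContinuousAt k 0 := by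
    have c1 : ContinuousAt (fun w => g (0, w)) 0 := hcont hgan0
    have c2 : ContinuousAt (fun w => fderiv ℂ P (0, w) (1, 0)) 0 := hcont (hap (hPan _ hgan0) _)
    have c3 : ContinuousAt (fun w => fderiv ℂ g (0, w) (1, 0)) 0 := hcont (hap hgan0 _)
    have c4 : ContinuousAt (fun w => P (0, w)) 0 := hcont (hPan _ hgan0)
    exact ((c1.const_mul 2).mul c2).sub ((c3.const_mul 4).mul c4)
  have hk0 : k 0 = -4 := by
    simp only [hk, hP, hg']
    simp [hg]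
  have hkne : ∀ᶠ w in 𝓝 (0 : ℂ), k w ≠ 0 :=
    hkc.eventually_ne (by rw [hk0]; norm_num)
  have hVne : ∀ᶠ w in 𝓝 (0 : ℂ), V (0, w) ≠ 0 := by
    have c1 : ContinuousAt (fun w => V (0, w)) 0 :=
      hcont (hVan (0, 0) (by simpa using hκ) (by simpa using hr))
    exact c1.eventually_ne (by rw [hV0]; exact hu0)
  obtain ⟨e₁, he₁, hball⟩ := Metric.eventually_nhds_iff_ball.1 (hkne.and hVne)
  set e : ℝ := min e₁ (min (κ / 4) (r / 4)) with he
  have he0 : 0 < e := lt_min he₁ (lt_min (by positivity) (by positivity))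
  obtain ⟨w₀, ρ₂, T, hw0, hwe, hρ₂, h32, hT, hrel⟩ := hyp e he0
  have hwe₁ : w₀ < e₁ := lt_of_lt_of_le hwe (min_le_left _ _)
  have hwκ : w₀ < κ / 4 := lt_of_lt_of_le hwe ((min_le_right _ _).trans (min_le_left _ _))
  have hwr : w₀ < r / 4 := lt_of_lt_of_le hwe ((min_le_right _ _).trans (min_le_right _ _))
  have hw0n : ‖(w₀ : ℂ)‖ = w₀ := by
    rw [norm_real, Real.norm_eq_abs, abs_of_pos hw0]
  obtain ⟨hkw, hVw⟩ := hball (w₀ : ℂ) (by rw [mem_ball_zero_iff, hw0n]; exact hwe₁)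
  have hgan1 : AnalyticAt ℂ g (0, (w₀ : ℂ)) := by
    refine hgan _ ?_ ?_
    · simp only [zero_add, norm_div, hw0n]
      norm_num
      linarith
    · simp only [hw0n]; linarith
  have hgne : g (0, (w₀ : ℂ)) ≠ 0 := by
    simp only [hg, zero_add]
    refine div_ne_zero (mul_ne_zero (neg_ne_zero.2 ?_) hVw) hu0
    exact_mod_cast hw0.ne'
  have hTopen : IsOpen {p : ℂ × ℂ | ‖p.1‖ < ρ₂ ∧ ‖p.2 - w₀‖ < ρ₂} :=
    (isOpen_lt continuous_fst.norm continuous_const).inter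
      (isOpen_lt (continuous_snd.sub continuous_const).norm continuous_const)
  have hTan : AnalyticAt ℂ (fun p : ℂ × ℂ => T p.1 p.2) (0, (w₀ : ℂ)) :=
    Vale.Agent.P097.Hol.analyticAt_of_differentiableOn hTopen hT ⟨by simpa using hρ₂, by simpa using hρ₂⟩
  have hD : 2 * g (0, (w₀ : ℂ)) * deriv (fun σ => fderiv ℂ g (σ, (w₀ : ℂ)) (0, 1)) 0 -
      4 * deriv (fun σ => g (σ, (w₀ : ℂ))) 0 * fderiv ℂ g (0, (w₀ : ℂ)) (0, 1) ≠ 0 := by
    have l1 : HasDerivAt (fun t : ℂ => (t, (w₀ : ℂ))) ((1 : ℂ), (0 : ℂ)) 0 :=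
      (hasDerivAt_id (0 : ℂ)).prodMk (hasDerivAt_const (0 : ℂ) (w₀ : ℂ))
    have e1' : HasDerivAt (fun σ => P (σ, (w₀ : ℂ))) (fderiv ℂ P (0, (w₀ : ℂ)) (1, 0)) 0 := by
      have h1 : HasFDerivAt P (fderiv ℂ P (0, (w₀ : ℂ))) (0, (w₀ : ℂ)) :=
        (hPan _ hgan1).differentiableAt.hasFDerivAt
      exact h1.comp_hasDerivAt (0 : ℂ) l1
    have e1 : deriv (fun σ => fderiv ℂ g (σ, (w₀ : ℂ)) (0, 1)) 0 =
        fderiv ℂ P (0, (w₀ : ℂ)) (1, 0) := e1'.deriv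
    have e2' : HasDerivAt (fun σ => g (σ, (w₀ : ℂ))) (fderiv ℂ g (0, (w₀ : ℂ)) (1, 0)) 0 := by
      have h1 : HasFDerivAt g (fderiv ℂ g (0, (w₀ : ℂ))) (0, (w₀ : ℂ)) :=
        hgan1.differentiableAt.hasFDerivAt
      exact h1.comp_hasDerivAt (0 : ℂ) l1
    have e2 : deriv (fun σ => g (σ, (w₀ : ℂ))) 0 = fderiv ℂ g (0, (w₀ : ℂ)) (1, 0) := e2'.deriv
    rw [e1, e2]
    exact hkw
  have hrel' : ∀ᶠ σ : ℂ in 𝓝 0, σ.im < 0 → ∀ᶠ p : ℂ × ℂ in 𝓝 (σ, (w₀ : ℂ)),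
      p.1 * g p ∈ SD (R / ‖u‖) ∧ -p.1 * g (-p.1, p.2) ∈ SD (R / ‖u‖) ∧
      (fun p : ℂ × ℂ => T p.1 p.2) p = Ψ (p.1 * g p) + Ψ (-p.1 * g (-p.1, p.2)) := by
    filter_upwards [ball_mem_nhds (0 : ℂ) hρ₂] with σ hσ him
    rw [mem_ball_zero_iff] at hσ
    have hop : IsOpen {p : ℂ × ℂ | (‖p.1‖ < ρ₂ ∧ ‖p.2 - w₀‖ < ρ₂) ∧ p.1.im < -|p.2.im|} :=
      hTopen.inter (isOpen_lt (continuous_im.comp continuous_fst)
        (continuous_im.comp continuous_snd).abs.neg)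
    have hmem : (σ, (w₀ : ℂ)) ∈ {p : ℂ × ℂ | (‖p.1‖ < ρ₂ ∧ ‖p.2 - w₀‖ < ρ₂) ∧ p.1.im < -|p.2.im|} := by
      refine ⟨⟨hσ, by simpa using hρ₂⟩, by simpa using him⟩
    filter_upwards [hop.mem_nhds hmem] with p hp
    obtain ⟨⟨hp1, hp2⟩, hp3⟩ := hp
    obtain ⟨m1, m2, m3⟩ := hrel p.1 p.2 hp1 hp2 hp3
    have hpw : ‖p.2‖ < 2 * w₀ := by
      have : ‖p.2‖ ≤ ‖p.2 - w₀‖ + ‖(w₀ : ℂ)‖ := by
        have := norm_add_le (p.2 - (w₀ : ℂ)) w₀
        simpa using this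
      rw [hw0n] at this
      linarith
    have hpr : ‖p.2‖ < r := by linarith
    have hh : ‖p.2 / 2‖ < w₀ := by
      rw [norm_div]
      norm_num
      linarith
    have hs1 : ‖p.1 + p.2 / 2‖ < κ := by
      have := norm_add_le p.1 (p.2 / 2)
      linarith
    have hs2 : ‖p.1 - p.2 / 2‖ < κ := by
      have := norm_sub_le p.1 (p.2 / 2)
      linarith
    have z1 : Z (tI p.2 + p.1 + p.2 / 2) p.2 = s₁ - u * (p.1 * g p) := by
      have := hI.loc (p.1 + p.2 / 2) p.2 hs1 hpr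
      rw [← add_assoc] at this
      rw [this]
      simp only [hg, hV]
      field_simp
      ring
    have z2 : Z (tI p.2 + p.1 - p.2 / 2) p.2 = s₁ - u * (-p.1 * g (-p.1, p.2)) := by
      have := hI.loc (p.1 - p.2 / 2) p.2 hs2 hpr
      rw [← add_sub_assoc] at this
      rw [this]
      have h1 : U (-p.1 + p.2 / 2) p.2 = U (p.1 - p.2 / 2) p.2 := by
        have := hI.Uev (p.1 - p.2 / 2) p.2 hs2 hpr
        rw [← this]
        congr 1
        ring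
      simp only [hg, hV, h1]
      field_simp
      ring
    rw [z1] at m1 m3
    rw [z2] at m2 m3
    exact ⟨(hmaps _ R).2 m1, (hmaps _ R).2 m2, m3⟩
  obtain ⟨A, R₁, F₁, hR₁, hR₁R, hF₁, hform⟩ := iso_core (div_pos hR hun) hΨd hgan1 hTan hgne hD hrel'
  refine ⟨-(u * A), R₁ * ‖u‖, fun ζ => F₁ (-(ζ - s₁) / u), by positivity, ?_, ?_, ?_⟩
  · rwa [le_div_iff₀ hun] at hR₁R
  · refine DifferentiableOn.comp (g := F₁) (f := fun ζ => -(ζ - s₁) / u) hF₁ ?_ ?_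
    · fun_prop
    · intro ζ hζ
      rw [mem_ball, dist_eq_norm] at hζ
      rw [mem_ball_zero_iff, norm_div, norm_neg, div_lt_iff₀ hun]
      exact hζ
  · intro ζ hζ
    rw [mem_SB_iff hu0, mul_div_cancel_right₀ _ hun.ne'] at hζ
    have h1 := hform _ hζ
    have h2 : s₁ - u * (-(ζ - s₁) / u) = ζ := by field_simp; ring
    simp only [hΨ, h2] at h1
    rw [h1]
    have h3 : ζ - s₁ ≠ 0 := by
      intro h4
      have := slitPlane_ne_zero hζ.2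
      rw [h4] at this
      simp at this
    congr 1
    field_simp

end Vale.Agent.P097.H896
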